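import Vale.Agent.P248.H917.FDefs

/-! P248: classes of bodies (definitions). -/

namespace Vale.Agent.P248.H432.V4

open Vale.Agent.P248.H917

/-- `K` is invariant, in some affine frame, under the sign changes of the coordinates in `T`
(nothing is assumed on the other coordinates). -/
def IsSignInv {n : ℕ} (T : Finset (Fin n)) (K : Set (E n)) : Prop :=
  ∃ (p : E n) (b : Module.Basis (Fin n) ℝ (E n)), ∀ x ∈ K, ∀ y : E n,
    (∀ i, i ∉ T → b.repr (y - p) i = b.repr (x - p) i) →
    (∀ i ∈ T, |b.repr (y - p) i| = |b.repr (x - p) i|) → y ∈ K

/-- `T` contains all but one of `n ≥ 5` coordinates, or all but two of `n ≥ 14` coordinates, or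
at least `(10 n + 4) / 11` coordinates. -/
def IsLarge {n : ℕ} (T : Finset (Fin n)) : Prop :=
  (T.card + 1 = n ∧ 5 ≤ n) ∨ (T.card + 2 = n ∧ 14 ≤ n) ∨ 10 * n + 4 ≤ 11 * T.card

/-- The bodies generated from the segments, the unconditional bodies, the bodies with cube
symmetries in all coordinates but two (such as all symmetric planar bodies) and the bodies with
rotations in a block of at least `(10 n + 40) / 11` coordinates, by products, polarity at the
centroid, gluings, fibre sums, by taking origin-symmetric bodies whose fibres over a line or a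
plane are homothets of an origin-symmetric generated body `U`, and by the exchange of the cube for
such a `U` in the fibres of a generated body. -/
inductive SymGenerated : ∀ n : ℕ, Set (E n) → Prop
  | low {n : ℕ} {K : Set (E n)} : n ≤ 1 → IsConvexBody K → SymGenerated n K
  | uncond {n : ℕ} {K : Set (E n)} : IsConvexBody K → IsSignInv Finset.univ K → SymGenerated n K
  | cube {n : ℕ} {K : Set (E n)} : IsConvexBody K → IsCubeSym K → SymGenerated n K
  | rot {n m : ℕ} {K : Set (E n)} {T : Fin m → Finset (Fin n)} {i : Fin m} : IsConvexBody K →
      IsRotInv T K → 10 * n + 40 ≤ 11 * (T i).card → SymGenerated n K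
  | prod {m n N : ℕ} {K : Set (E m)} {L : Set (E n)} {M : Set (E N)} :
      SymGenerated m K → SymGenerated n L → ProductOf K L M → SymGenerated N M
  | polar {n : ℕ} {K : Set (E n)} : SymGenerated n K → SymGenerated n (centroidPolar K)
  | glue {n : ℕ} {K K₁ K₂ : Set (E n)} : SymGenerated n K₁ → SymGenerated n K₂ →
      Convex ℝ K → IsGluing K K₁ K₂ → SymGenerated n K
  | fibreSum {n : ℕ} {K K₁ K₂ : Set (E n)} : SymGenerated n K₁ → SymGenerated n K₂ →
      IsFibreSum K K₁ K₂ → SymGenerated n K
  | fibred {q p n : ℕ} {U : Set (E p)} {K : Set (E n)} : q ≤ 2 → SymGenerated p U → IsSym U →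
      IsConvexBody K → IsSym K → CentrallyFibredBy q U K → SymGenerated n K
  | exch {q p n : ℕ} {U : Set (E p)} {K K' : Set (E n)} : 1 ≤ p → SymGenerated p U → IsSym U →
      SymGenerated n K' → IsConvexBody K → IsExchange q U (H917.cube p) K K' → SymGenerated n K

/-- The bodies generated from all convex bodies of dimension at most three, all polytopes with at
most `n + 2` vertices, all locally anti-blocking bodies, all bodies with rotations in a block of
at least `(n + 5) / 2` coordinates, all bodies with sign changes in a large set of coordinates and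
all bodies of `SymGenerated` of dimension at least two, by joins, products (a product with a point
is an affine image), polarity at the centroid, gluings, fibre sums of two bodies that are not both
simplices, and by the exchange of the cube for a symmetric body `U` with `P(U) ≥ 4^p / p!` in the
fibres of a body that is not a simplex. -/
inductive Generated : ∀ n : ℕ, Set (E n) → Prop
  | low {n : ℕ} {K : Set (E n)} : n ≤ 3 → IsConvexBody K → Generated n K
  | few {n : ℕ} {v : Fin (n + 2) → E n} : IsConvexBody (convexHull ℝ (Set.range v)) →
      Generated n (convexHull ℝ (Set.range v))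
  | lab {n : ℕ} {K : Set (E n)} : IsConvexBody K → IsLocallyAntiBlocking K → Generated n K
  | rot {n m : ℕ} {K : Set (E n)} {T : Fin m → Finset (Fin n)} {i : Fin m} : IsConvexBody K →
      IsRotInv T K → n + 5 ≤ 2 * (T i).card → Generated n K
  | signs {n : ℕ} {K : Set (E n)} {T : Finset (Fin n)} : IsConvexBody K → IsSignInv T K →
      IsLarge T → Generated n K
  | sym {n : ℕ} {K : Set (E n)} : 2 ≤ n → SymGenerated n K → Generated n K
  | join {m n N : ℕ} {K : Set (E m)} {L : Set (E n)} {M : Set (E N)} :
      Generated m K → Generated n L → JoinOf K L M → Generated N M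
  | prod {m n N : ℕ} {K : Set (E m)} {L : Set (E n)} {M : Set (E N)} :
      Generated m K → Generated n L → ProductOf K L M → Generated N M
  | polar {n : ℕ} {K : Set (E n)} : Generated n K → Generated n (centroidPolar K)
  | glue {n : ℕ} {K K₁ K₂ : Set (E n)} : Generated n K₁ → Generated n K₂ → Convex ℝ K →
      IsGluing K K₁ K₂ → Generated n K
  | fibreSum {n : ℕ} {K K₁ K₂ : Set (E n)} : Generated n K₁ → Generated n K₂ →
      ¬ (IsSimplex K₁ ∧ IsSimplex K₂) → IsFibreSum K K₁ K₂ → Generated n K
  | exch {q p n : ℕ} {U : Set (E p)} {K K' : Set (E n)} : 1 ≤ p → IsConvexBody U → IsSym U →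
      ENNReal.ofReal (4 ^ p / (p.factorial : ℝ)) ≤ volumeProduct U → Generated n K' →
      ¬ IsSimplex K' → IsConvexBody K → IsExchange q U (H917.cube p) K K' → Generated n K

end Vale.Agent.P248.H432.V4
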