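import Vale.Agent.P248.H432.V4.Defs
import Vale.Agent.P248.H432.Q1Rot
import Vale.Agent.P248.H432.PolarLaw
import Vale.Agent.P248.H917.FGen

/-! P248: Q1's bound for the class `SymGenerated`. -/

set_option linter.unusedSectionVars false

open MeasureTheory Set
open scoped ENNReal

namespace Vale.Agent.P248.H432.V4

open Vale.Agent.P248.H432.Q
open Vale.Agent.P248.H917 (IsSym CentrallyFibredBy IsExchange law_q1 exch_ge)

variable {n : ℕ}

theorem bound_iff {K : Set (E n)} (a : ℝ≥0∞) : a ≤ volumeProduct K ↔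
    a / ENNReal.ofReal (simplexVal n) ≤ mahlerRatio K := by
  rw [volumeProduct_eq_ratio, ENNReal.div_le_iff_le_mul (Or.inl (ofReal_sv_ne_zero n))
    (Or.inl ENNReal.ofReal_ne_top)]

theorem bound_mix {K K₁ K₂ : Set (E n)} {a : ℝ≥0∞} (h₁ : a ≤ volumeProduct K₁)
    (h₂ : a ≤ volumeProduct K₂) (h : min (mahlerRatio K₁) (mahlerRatio K₂) ≤ mahlerRatio K) :
    a ≤ volumeProduct K := by
  rw [bound_iff] at h₁ h₂ ⊢
  exact (le_min h₁ h₂).trans h

theorem uncond_bound {K : Set (E n)} (hK : IsConvexBody K) (hU : IsSignInv Finset.univ K) :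
    ENNReal.ofReal (4 ^ n / (n.factorial : ℝ)) ≤ volumeProduct K := by
  obtain ⟨p, b, hs⟩ := hU
  have hS := CB_frame hK p b
  set S := frame p b ⁻¹' K with hSd
  have hinv : ∀ x ∈ S, ∀ y : Fin n → ℝ, (∀ i, |y i| = |x i|) → y ∈ S := by
    intro x hx y h
    refine hs _ hx _ (fun i hi => absurd (Finset.mem_univ i) hi) fun i _ => ?_
    rw [frame_repr, frame_repr]
    exact h i
  have hneg : ∀ x ∈ S, -x ∈ S := fun x hx => hinv x hx _ fun i => by
    rw [Pi.neg_apply, abs_neg]
  have hSB := sb_of_symm hS hneg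
  have hUn : Unc S := fun i x hx => hinv x hx _ fun j => by
    by_cases hj : j = i
    · subst hj
      rw [Function.update_self, abs_neg]
    · rw [Function.update_of_ne hj]
  rw [volumeProduct_eq_vp K p b, vp_symm hSB hneg]
  exact pUnc main_top n S hSB hUn

theorem cube_plane {K : Set (E 2)} (hs : ∀ x ∈ K, -x ∈ K) : IsCubeSym K := by
  refine ⟨0, sb 2, 0, 1, by decide, fun σ s h0 h1 h2 h3 x hx y hy => ?_⟩
  have hσ : ∀ i, σ i = i := by
    intro i
    have hi : i = 0 ∨ i = 1 := by omega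
    rcases hi with rfl | rfl
    · exact h0
    · exact h1
  have hs0 : ∀ i, s i = s 0 := by
    intro i
    have hi : i = 0 ∨ i = 1 := by omega
    rcases hi with rfl | rfl
    · rfl
    · exact h2.symm
  have e : y = s 0 • x := by
    apply (sb 2).repr.injective
    ext i
    have h4 := hy i
    rw [sub_zero, sub_zero, hσ, hs0] at h4
    rw [h4, map_smul]
    rfl
  rcases eq_or_eq_neg_of_abs_eq (h3 0) with h5 | h5
  · rw [e, h5, one_smul]
    exact hx
  · rw [e, h5, neg_one_smul]
    exact hs x hx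

theorem low_bound {K : Set (E n)} (hn : n ≤ 1) (hK : IsConvexBody K) :
    ENNReal.ofReal (4 ^ n / (n.factorial : ℝ)) ≤ volumeProduct K := by
  have h1 := (Q2_down Q2_three (by omega : n ≤ 3) K hK).1
  rw [one_le_ratio_iff] at h1
  refine le_trans (le_of_eq ?_) h1
  congr 1
  unfold simplexVal
  interval_cases n <;> norm_num

theorem symGenerated {K : Set (E n)} (h : SymGenerated n K) : IsConvexBody K ∧
    ENNReal.ofReal (4 ^ n / (n.factorial : ℝ)) ≤ volumeProduct K := by
  induction h with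
  | low hn hK => exact ⟨hK, low_bound hn hK⟩
  | uncond hK hU => exact ⟨hK, uncond_bound hK hU⟩
  | cube hK hC => exact ⟨hK, cube_top hK hC⟩
  | @rot n m K T i hK hT hc =>
    obtain ⟨p, b, hT⟩ := hT
    exact ⟨hK, (q1_rot (T := fun _ => T i) hK ⟨p, b, fun _ => hT i⟩ hc).le⟩
  | @prod m n N K L M _ _ hj ihK ihL =>
    replace hj := hj.isProduct
    refine ⟨hj.body ihK.1 ihL.1, ?_⟩
    rw [hj.volumeProduct_eq ihK.1 ihL.1]
    obtain rfl := hj.1
    calc ENNReal.ofReal (4 ^ (m + n) / ((m + n).factorial : ℝ))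
        = ENNReal.ofReal ((m.factorial : ℝ) * n.factorial / (m + n).factorial) *
            (ENNReal.ofReal (4 ^ m / (m.factorial : ℝ)) *
              ENNReal.ofReal (4 ^ n / (n.factorial : ℝ))) := by
          rw [← ENNReal.ofReal_mul (by positivity), ← ENNReal.ofReal_mul (by positivity)]
          congr 1
          have h1 : (0 : ℝ) < m.factorial := by positivity
          have h2 : (0 : ℝ) < n.factorial := by positivity
          rw [pow_add]
          field_simp
      _ ≤ _ := by
          gcongr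
          · exact ihK.2
          · exact ihL.2
  | polar _ ih =>
    exact ⟨polarAt_body ih.1 (centroid_mem ih.1), ih.2.trans (volumeProduct_le_polar ih.1)⟩
  | glue _ _ hcv hg ih₁ ih₂ =>
    obtain ⟨h1, h2, -⟩ := hg.law hcv ih₁.1 ih₂.1
    exact ⟨h1, bound_mix ih₁.2 ih₂.2 h2⟩
  | fibreSum _ _ hg ih₁ ih₂ =>
    obtain ⟨h1, h2, -⟩ := hg.law ih₁.1 ih₂.1
    exact ⟨h1, bound_mix ih₁.2 ih₂.2 h2⟩
  | @fibred q p n U K hq _ hUs hK hKs hF ih =>
    refine ⟨hK, ?_⟩
    rcases Nat.eq_zero_or_pos p with rfl | hp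
    · have hn : q + 0 = n := hF.1
      rcases Nat.lt_or_ge n 2 with h2 | h2
      · exact low_bound (by omega) hK
      · obtain rfl : 2 = n := by omega
        exact cube_top hK (cube_plane hKs)
    · have h1 := law_q1 hq hp ih.1 hUs hK hKs hF
      have hc : ENNReal.ofReal (4 ^ p / (p.factorial : ℝ)) ≠ 0 := by
        rw [Ne, ENNReal.ofReal_eq_zero, not_le]
        positivity
      have h2 : ENNReal.ofReal (4 ^ p / (p.factorial : ℝ)) *
          ENNReal.ofReal (4 ^ n / (n.factorial : ℝ)) ≤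
          ENNReal.ofReal (4 ^ p / (p.factorial : ℝ)) * volumeProduct K := by
        refine le_trans ?_ h1
        rw [mul_comm]
        exact mul_le_mul' le_rfl ih.2
      exact (ENNReal.mul_le_mul_iff_right hc ENNReal.ofReal_ne_top).1 h2
  | exch hp _ hUs _ hK hX ihU ih =>
    exact ⟨hK, ih.2.trans (exch_ge hp ihU.1 hUs ihU.2 hK hX)⟩

end Vale.Agent.P248.H432.V4
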